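import Vale.Agent.N082.Inj

/-!
# Twisted coefficients for the Kadison–Ringrose theorem, and injectivity of finite algebras
-/

namespace Vale.Agent.Results.P082.A0Twisted

open Vale.Agent.P082 Vale.Agent.N082

universe u v

/-- Let `M` be a von Neumann algebra on a complex Hilbert space `H`.
(1) The bounded cohomology of `M` with coefficients in `M` with the actions
`a · x · b = π(a) x β(b)` vanishes in all degrees `n ≥ 1`, for every bounded homomorphism
`π : M → M` (not assumed unital, involutive or normal) and every bounded automorphism `β` of the
algebra `M`.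
(2) If `M` is finite, then (a) there is a bounded linear map `R` from the bounded linear maps
`M → M` to `M` with `R(id) = 1` and `R(c φ(b ·)) = c R(φ) b`, and (b) `M` is an injective normed
right `M`-module: module maps into `M` extend along every module map that has a bounded linear
left inverse. -/
theorem result (H : Type u) [NormedAddCommGroup H] [InnerProductSpace ℂ H] [CompleteSpace H]
    (M : VonNeumannAlgebra H) :
    TwistedVanishes M.toStarSubalgebra ∧
    ((∀ s ∈ M, star s * s = 1 → s * star s = 1) →
      HasRetraction M.toStarSubalgebra ∧ InjectiveOverItself.{v} M.toStarSubalgebra) := by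
  refine ⟨fun π β hπ hβ k f hf => twisted_vanishing M π hπ β hβ f hf, fun hM => ?_⟩
  obtain ⟨A, h2, h3, h4⟩ := exists_retraction M hM
  refine ⟨⟨A, h3, fun φ ψ b c h => ?_⟩, fun X Y _ _ _ _ _ _ _ _ _ _ i r hr θ =>
    extend_of_retraction A h2 h3 h4 i r hr θ⟩
  have h5 : ψ = (mulL c).comp (φ.comp (mulL b)) := ContinuousLinearMap.ext h
  rw [h5, h2, h4, mul_assoc]

end Vale.Agent.Results.P082.A0Twisted
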